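import Vale.Agent.Lib.P245.Bridge

/-!
# P245: Gaussian concentration for subgaussian log-concave measures at scale `(n a⁴ ψ²)^(1/3)`.
-/

open MeasureTheory
open scoped ENNReal RealInnerProductSpace

namespace Vale.Agent.Results.P245.A_main

open Vale.Agent.Lib.P245

/-- Let `μ` be a centered log-concave probability measure on `ℝⁿ` with a Lebesgue density which is
linearly `a`-subgaussian, and let `F` be a `1`-Lipschitz function with
`∫ exp((F - ∫ F) / ψ) dμ ≤ e`. Then for all `r ≥ 0`,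
`μ(F ≥ ∫ F + r) ≤ exp(1 - r² / (16 Σ))`, with `Σ = 16 a² + 52 ψ² + (12800 ψ² a⁴ n)^(1/3)`. -/
theorem result {n : ℕ} (hn : 1 ≤ n) {ρ : EuclideanSpace ℝ (Fin n) → ℝ} (hρm : Measurable ρ)
    (hρ : IsLogConcaveDensity ρ) {μ : Measure (EuclideanSpace ℝ (Fin n))} [IsProbabilityMeasure μ]
    (hμ : μ = volume.withDensity fun x => ENNReal.ofReal (ρ x))
    (hc : IsCenteredMeasure μ) {a : ℝ} (ha : 0 < a) (hs : IsLinSubgaussian μ a)
    {F : EuclideanSpace ℝ (Fin n) → ℝ} (hF : LipschitzWith 1 F) {ψ : ℝ} (hψ : 0 < ψ)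
    (hb : ∫⁻ x, ENNReal.ofReal (Real.exp ((F x - ∫ y, F y ∂μ) / ψ)) ∂μ ≤
      ENNReal.ofReal (Real.exp 1))
    {r : ℝ} (hr : 0 ≤ r) :
    μ {x | (∫ y, F y ∂μ) + r ≤ F x} ≤ ENNReal.ofReal (Real.exp (1 - r ^ 2 /
      (16 * (16 * a ^ 2 + 52 * ψ ^ 2 + (12800 * ψ ^ 2 * a ^ 4 * n) ^ (1 / 3 : ℝ))))) := by
  have hSG := sg_of_subgaussian ha hs hc
  set c := ∫ y, F y ∂μ with hc'
  have hFm : Measurable F := hF.continuous.measurable
  have hG : ∀ x z : EuclideanSpace ℝ (Fin n), (F x - c) - (F z - c) ≤ ‖x - z‖ := by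
    intro x z
    have h1 := hF.dist_le_mul x z
    rw [Real.dist_eq, dist_eq_norm] at h1
    simp only [NNReal.coe_one, one_mul] at h1
    have := le_abs_self (F x - F z)
    linarith
  have hmain := concentration (G := fun x => F x - c) (r := r) hn hSG hρm hρ.1 hρ.mid hμ hG
    (by fun_prop) hψ hb hr
  have e1 : {x | c + r ≤ F x} = {x | r ≤ F x - c} := by
    ext x
    simp only [Set.mem_ofPred_eq]
    constructor <;> intro h <;> linarith
  rw [e1]
  have e2 : (a ^ 2) ^ 2 = a ^ 4 := by ring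
  have e3 : 12800 * ψ ^ 2 * (a ^ 2) ^ 2 * (n : ℝ) = 12800 * ψ ^ 2 * a ^ 4 * n := by rw [e2]
  rw [e3] at hmain
  refine hmain.trans (le_of_eq ?_)
  unfold eo
  congr 3

end Vale.Agent.Results.P245.A_main
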