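import Vale.Agent.Lib.P245.Smooth

/-!
# P245: the logarithmic Sobolev inequality for subgaussian log-concave measures with
constant `a² + C + (a⁴ n C)^(1/3)`, where `C` is a Poincare constant, and a defective form with
no Poincare input.
-/

open MeasureTheory
open scoped ENNReal RealInnerProductSpace

namespace Vale.Agent.Results.P245.B_lsi

open Vale.Agent.Lib.P245

/-- Let `μ` be a centered log-concave probability measure on `ℝⁿ` with a Lebesgue density which is
linearly `a`-subgaussian, and `f` a `C²` function with compact support. Then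
(1) for `0 < T ≤ 1 / (16 a²)`:
`Ent(f²) ≤ (6 / T) ∫ |Df|² + 3 (3 + 800 a⁴ T² n) ∫ f²`;
(2) if `Var(f) ≤ C ∫ |Df|²`, then
`Ent(f²) ≤ (384 a² + 55 C + 9624 (a⁴ n C)^(1/3)) ∫ |Df|²`. -/
theorem result {n : ℕ} (hn : 1 ≤ n) {ρ : EuclideanSpace ℝ (Fin n) → ℝ} (hρm : Measurable ρ)
    (hρ : IsLogConcaveDensity ρ) {μ : Measure (EuclideanSpace ℝ (Fin n))} [IsProbabilityMeasure μ]
    (hμ : μ = volume.withDensity fun x => ENNReal.ofReal (ρ x))
    (hc : IsCenteredMeasure μ) {a : ℝ} (ha : 0 < a) (hs : IsLinSubgaussian μ a)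
    {f : EuclideanSpace ℝ (Fin n) → ℝ} (hf : ContDiff ℝ 2 f) (hfc : HasCompactSupport f) :
    (∀ T : ℝ, 0 < T → T ≤ 1 / (16 * a ^ 2) →
      ∫ x, f x ^ 2 * Real.log (f x ^ 2) ∂μ - (∫ x, f x ^ 2 ∂μ) * Real.log (∫ x, f x ^ 2 ∂μ) ≤
        6 / T * (∫ x, ‖fderiv ℝ f x‖ ^ 2 ∂μ) +
          3 * (3 + 800 * a ^ 4 * T ^ 2 * n) * ∫ x, f x ^ 2 ∂μ) ∧
    (∀ C : ℝ, 0 ≤ C → ∫ x, (f x - ∫ y, f y ∂μ) ^ 2 ∂μ ≤ C * ∫ x, ‖fderiv ℝ f x‖ ^ 2 ∂μ →
      ∫ x, f x ^ 2 * Real.log (f x ^ 2) ∂μ - (∫ x, f x ^ 2 ∂μ) * Real.log (∫ x, f x ^ 2 ∂μ) ≤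
        (384 * a ^ 2 + 55 * C + 9624 * (a ^ 4 * n * C) ^ (1 / 3 : ℝ)) *
          ∫ x, ‖fderiv ℝ f x‖ ^ 2 ∂μ) := by
  have hSG := sg_of_subgaussian ha hs hc
  have hlc := fun x z t (h0 : 0 < t) (h1 : t < 1) => hρ.rpow_le x z h0 h1
  have ea : (a ^ 2) ^ 2 = a ^ 4 := by ring
  have hI0 : 0 ≤ ∫ x, ‖fderiv ℝ f x‖ ^ 2 ∂μ := integral_nonneg fun x => by positivity
  constructor
  · intro T hT0 hT
    have hd := defective_lsi hn hSG hT0 hT hρm hρ.1 hlc hμ hf hfc 0
    simp only [add_zero] at hd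
    rw [ea] at hd
    unfold entR at hd
    refine hd.trans (le_of_eq ?_)
    ring
  · intro C hC0 hP
    obtain ⟨B, hB⟩ := hf.continuous.bounded_above_of_compact_support hfc
    have hfb : ∀ x, |f x| ≤ B := fun x => by simpa using hB x
    have hR := rothaus (μ := μ) hf.continuous.measurable hfb
    set m := ∫ y, f y ∂μ with hm
    set I := ∫ x, ‖fderiv ℝ f x‖ ^ 2 ∂μ with hI
    set s := ∫ x, (f x - m) ^ 2 ∂μ with hs'
    have hs0 : 0 ≤ s := integral_nonneg fun x => by positivity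
    set w := (a ^ 4 * n * C) ^ (1 / 3 : ℝ) with hw
    have hw0 : 0 ≤ w := by positivity
    have hw3 : w ^ 3 = a ^ 4 * n * C := by
      rw [hw, ← Real.rpow_natCast, ← Real.rpow_mul (by positivity)]
      norm_num
    have hA : 0 < a ^ 2 := by positivity
    set S := 16 * a ^ 2 + w with hS
    have hS0 : 0 < S := by positivity
    set T := 1 / S with hTdef
    have hT0 : 0 < T := by positivity
    have hT : T ≤ 1 / (16 * a ^ 2) := by
      apply one_div_le_one_div_of_le (by positivity)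
      rw [hS]
      linarith
    have hd := defective_lsi hn hSG hT0 hT hρm hρ.1 hlc hμ hf hfc (-m)
    simp only [← sub_eq_add_neg] at hd
    rw [ea] at hd
    have hT2 : T ^ 2 * w ^ 3 ≤ w := by
      rcases hw0.eq_or_lt with h | h
      · rw [← h]
        simp
      · have hTw : T * w ≤ 1 := by
          rw [hTdef, one_div, inv_mul_le_iff₀ hS0, mul_one, hS]
          nlinarith
        have h2 : (T * w) ^ 2 ≤ 1 := by
          have : 0 ≤ T * w := by positivity
          nlinarith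
        calc T ^ 2 * w ^ 3 = (T * w) ^ 2 * w := by ring
          _ ≤ 1 * w := by gcongr
          _ = w := one_mul w
    have h6T : 6 / T = 6 * S := by
      rw [hTdef]
      field_simp
    have hM : 800 * a ^ 4 * T ^ 2 * n * C ≤ 800 * w := by
      have e : 800 * a ^ 4 * T ^ 2 * n * C = 800 * (T ^ 2 * w ^ 3) := by
        rw [hw3]
        ring
      rw [e]
      linarith
    have hsC : s ≤ C * I := hP
    rw [h6T] at hd
    have hbig : (12 * (3 + 800 * a ^ 4 * T ^ 2 * n) + 19) * s ≤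
        (55 * C + 9600 * w) * I := by
      have h1 : 0 ≤ 12 * (3 + 800 * a ^ 4 * T ^ 2 * n) + 19 := by positivity
      calc (12 * (3 + 800 * a ^ 4 * T ^ 2 * n) + 19) * s
          ≤ (12 * (3 + 800 * a ^ 4 * T ^ 2 * n) + 19) * (C * I) := by gcongr
        _ = (55 * C + 12 * (800 * a ^ 4 * T ^ 2 * n * C)) * I := by ring
        _ ≤ (55 * C + 12 * (800 * w)) * I := by
            gcongr
        _ = (55 * C + 9600 * w) * I := by ring
    have hfinal : entR μ (fun x => f x ^ 2) ≤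
        4 * (6 * S * I + 3 * s * (3 + 800 * a ^ 4 * T ^ 2 * n)) + 19 * s := by
      refine hR.trans ?_
      gcongr
    unfold entR at hfinal
    refine hfinal.trans ?_
    have e : 4 * (6 * S * I + 3 * s * (3 + 800 * a ^ 4 * T ^ 2 * n)) + 19 * s =
        24 * S * I + (12 * (3 + 800 * a ^ 4 * T ^ 2 * n) + 19) * s := by ring
    rw [e]
    have e2 : (384 * a ^ 2 + 55 * C + 9624 * w) * I =
        24 * S * I + (55 * C + 9600 * w) * I := by
      rw [hS]
      ring
    rw [e2]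
    linarith

end Vale.Agent.Results.P245.B_lsi
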